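import Vale.Agent.N063.Main

open Vale.Agent.P063.H868 Vale.Agent.N063 Real in
/-- Sharp thresholds beyond graphs and hypergraphs: width, influence and noise sensitivity for
families invariant under any group of vertex permutations that contains the `3`-cycles of a
`k`-set around every vertex. -/
theorem Vale.Agent.Results.P063.A0Structures.result :
    ∀ r m k : ℕ, 2 ≤ r → 1 ≤ m → 9 ≤ k → ∀ (V E : Type) [Fintype V] [DecidableEq V] [Fintype E]
      [DecidableEq E] (G : Subgroup (Equiv.Perm V)) [MulAction G E] (s : E → Finset V),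
      (∀ v, ∃ Y : Finset V, v ∈ Y ∧ k ≤ Y.card ∧
        ∀ σ : Equiv.Perm V, σ.IsThreeCycle → σ.support ⊆ Y → σ ∈ G) →
      (∀ e, (s e).Nonempty ∧ (s e).card ≤ r) →
      (∀ T : Finset V, (Finset.univ.filter (fun e => s e = T)).card ≤ m) →
      (∀ (g : G) (e : E), s (g • e) = (s e).image (g : Equiv.Perm V)) →
      (∀ (g : G) (e : E), (∀ v ∈ s e, (g : Equiv.Perm V) v = v) → g • e = e) →
      ∀ P : Set (Finset E), (∀ g : G, ∀ A ∈ P, A.image (fun e => g • e) ∈ P) →
      (IsUpperSet P → P.Nonempty → ∀ ε : ℝ, 0 < ε → ε < 1 / 2 → width ε (prob P) ≤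
        4800 * r * m * log ((1 - ε) / ε) / log k ^ ((r : ℝ) / ((r : ℝ) - 1))) ∧
      ∀ p : ℝ, 0 < p → p < 1 →
        log k ^ ((r : ℝ) / ((r : ℝ) - 1)) * (prob P p * (1 - prob P p))
          ≤ 2400 * r * m * infl P p ∧
        ∀ δ : ℝ, 0 ≤ δ → δ ≤ 1 → bothProb P p δ - prob P p ^ 2 ≤
          exp (-(δ * ((log k / log (4 / (p * (1 - p)))) ^ ((r : ℝ) / ((r : ℝ) - 1))
            / (128 * r * m)))) + r * infl P p * (k : ℝ) ^ (-(1 / 8 : ℝ)) :=
  general
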